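/-
R335/Defs: definitions of row 335 (S0521).  Author: helper48.  FROZEN (ask helper48 for changes).
The paper proof is in `Crest/Agent/R335/Notes.lean` (a comment).
-/
import Crest.Prelude.Def_ThreeElectron
import Crest.Agent.R338.Basic

set_option autoImplicit false
set_option linter.unusedSectionVars false
set_option linter.unusedVariables false

noncomputable section

namespace Crest.Agent.R335

open MeasureTheory Set Filter Topology Metric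
open scoped ENNReal

/-! ### Weak derivatives on a finite-dimensional space with a Haar measure -/

instance instHaarProd {E F : Type} [NormedAddCommGroup E] [NormedSpace ℝ E] [FiniteDimensional ℝ E]
    [MeasureSpace E] [BorelSpace E] [(volume : Measure E).IsAddHaarMeasure]
    [NormedAddCommGroup F] [NormedSpace ℝ F] [FiniteDimensional ℝ F]
    [MeasureSpace F] [BorelSpace F] [(volume : Measure F).IsAddHaarMeasure] :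
    (volume : Measure (E × F)).IsAddHaarMeasure :=
  Measure.prod.instIsAddHaarMeasure (volume : Measure E) (volume : Measure F)

section general
variable {E : Type} [NormedAddCommGroup E] [NormedSpace ℝ E] [MeasureSpace E]
  {ι : Type} [Fintype ι]

/-- `C¹` with compact support. -/
def Tst (φ : E → ℝ) : Prop := ContDiff ℝ 1 φ ∧ HasCompactSupport φ

/-- `g` is the weak derivative of `f` in the direction `v`. -/
def WD (v : E) (f g : E → ℝ) : Prop :=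
  LocallyIntegrable f volume ∧ LocallyIntegrable g volume ∧
    ∀ φ : E → ℝ, Tst φ → ∫ x, f x * fderiv ℝ φ x v = -∫ x, g x * φ x

open Classical in
/-- The weak derivative (a measurable version; `0` if there is none). -/
def wd (v : E) (f : E → ℝ) : E → ℝ :=
  if h : ∃ g : E → ℝ, Measurable g ∧ WD v f g then h.choose else 0

/-- Locally square integrable. -/
def LocL2 (f : E → ℝ) : Prop := ∀ R : ℝ, MemLp f 2 (volume.restrict (closedBall (0 : E) R))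

/-- Locally essentially bounded. -/
def LocBdd (f : E → ℝ) : Prop := ∀ R : ℝ, ∃ M : ℝ, ∀ᵐ x : E, ‖x‖ ≤ R → |f x| ≤ M

/-- Locally bounded below by a positive constant. -/
def LocPos (f : E → ℝ) : Prop := ∀ R : ℝ, ∃ c : ℝ, 0 < c ∧ ∀ᵐ x : E, ‖x‖ ≤ R → c ≤ f x

/-- The Sobolev class `H¹` for the directions `b i`. -/
def H1 (b : ι → E) (f : E → ℝ) : Prop :=
  MemLp f 2 volume ∧ ∀ i, WD (b i) f (wd (b i) f) ∧ MemLp (wd (b i) f) 2 volume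

/-- The local class `H¹_loc`. -/
def HL (b : ι → E) (f : E → ℝ) : Prop :=
  LocL2 f ∧ ∀ i, WD (b i) f (wd (b i) f) ∧ LocL2 (wd (b i) f)

/-- `H¹_loc ∩ L^∞_loc`: an algebra. -/
def LH (b : ι → E) (f : E → ℝ) : Prop := HL b f ∧ LocBdd f

/-- Bounded `H¹` functions vanishing outside a ball: the test functions of weak inequalities. -/
def LT (b : ι → E) (φ : E → ℝ) : Prop := LH b φ ∧ ∃ R : ℝ, ∀ᵐ x : E, R < ‖x‖ → φ x = 0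

/-- Pointwise inner product of the weak gradients. -/
def dot (b : ι → E) (f g : E → ℝ) (x : E) : ℝ := ∑ i, wd (b i) f x * wd (b i) g x

/-- Dirichlet form. -/
def dir (b : ι → E) (f g : E → ℝ) : ℝ := ∫ x, dot b f g x

/-- `L²` inner product. -/
def ip (f g : E → ℝ) : ℝ := ∫ x, f x * g x

/-- The form of `-Δ/2 + U`. -/
def qf (b : ι → E) (U f g : E → ℝ) : ℝ := dir b f g / 2 + ∫ x, U x * f x * g x

/-- Convergence in `L²`. -/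
def L2to (F : ℕ → E → ℝ) (f : E → ℝ) : Prop :=
  Tendsto (fun n => ∫ x, (F n x - f x) ^ 2) atTop (𝓝 0)

/-- `Δ f ≥ a f - s` weakly in `S`. -/
def Sub (b : ι → E) (S : Set E) (f a s : E → ℝ) : Prop :=
  ∀ φ : E → ℝ, LT b φ → (∀ᵐ x : E, 0 ≤ φ x) → (∀ᵐ x : E, x ∉ S → φ x = 0) →
    dir b f φ + ∫ x, a x * f x * φ x ≤ ∫ x, s x * φ x

/-- Integrable on bounded parts of `S`. -/
def LI (S : Set E) (h : E → ℝ) : Prop := ∀ R : ℝ, IntegrableOn h (S ∩ closedBall (0 : E) R) volume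

/-- A potential that is a bounded multiplier `H¹ → L²` (Coulomb potentials, by Hardy). -/
def Pot (b : ι → E) (U : E → ℝ) : Prop :=
  Measurable U ∧ ∃ C : ℝ, ∀ f : E → ℝ, H1 b f →
    MemLp (fun x => U x * f x) 2 volume ∧ ∫ x, (U x * f x) ^ 2 ≤ C * dir b f f

/-- Coordinates dual to the directions, comparable with the norm. -/
structure Frame (b : ι → E) where
  co : ι → E →L[ℝ] ℝ
  dual_eq : ∀ i, co i (b i) = 1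
  dual_ne : ∀ i j, i ≠ j → co i (b j) = 0
  span : ∀ y, ∑ i, co i y • b i = y
  norm_le : ∀ y, ‖y‖ ^ 2 ≤ ∑ i, co i y ^ 2
  le_norm : ∀ y, ∑ i, co i y ^ 2 ≤ 3 * ‖y‖ ^ 2

/-- Directions of a product space. -/
def pb {F : Type} [Zero F] {κ : Type} (b : ι → E) (b' : κ → F) : ι ⊕ κ → E × F :=
  Sum.elim (fun i => (b i, 0)) (fun j => (0, b' j))

end general

/-! ### The concrete spaces -/

/-- One electron. -/
abbrev X := EuclideanSpace ℝ (Fin 3)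
/-- Two electrons. -/
abbrev Y := X × X
/-- Three electrons. -/
abbrev Z := X × Y

def eX (c : Fin 3) : X := EuclideanSpace.single c 1
def eY : Fin 3 ⊕ Fin 3 → Y := pb eX eX
def eZ : Fin 3 ⊕ (Fin 3 ⊕ Fin 3) → Z := pb eX eY

/-- Reflection in the plane `z = 0`. -/
def rf (x : X) : X := WithLp.toLp 2 fun c => if c = 2 then -x c else x c
def rfY (y : Y) : Y := (rf y.1, rf y.2)
def rfZ (p : Z) : Z := (rf p.1, rfY p.2)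

/-- The open upper half space. -/
def Hs : Set X := {x | 0 < x 2}
/-- Distance from the axis. -/
def sx (x : X) : ℝ := √(x 0 ^ 2 + x 1 ^ 2)

/-- `t⁻² ∫_{0<z<t, |x|≤R} f² → 0`: zero trace on the plane from above. -/
def Strip (f : X → ℝ) : Prop :=
  ∀ R ε : ℝ, 0 < ε → ∃ t0 : ℝ, 0 < t0 ∧ ∀ t : ℝ, 0 < t → t ≤ t0 →
    ∫ x in {x : X | 0 < x 2 ∧ x 2 < t ∧ ‖x‖ ≤ R}, f x ^ 2 ≤ ε * t ^ 2

def nuc (D : ℝ) : X := EuclideanSpace.single 2 D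
def tp (D : ℝ) (x : X) : ℝ := ‖x - nuc D‖
def tm (D : ℝ) (x : X) : ℝ := ‖x + nuc D‖

/-- The scaled two-centre potential. -/
def V (D : ℝ) (x : X) : ℝ := -1 / tp D x - 1 / tm D x
def U2 (D l : ℝ) (y : Y) : ℝ := V D y.1 + V D y.2 + l / ‖y.1 - y.2‖
def Wx (x : X) (y : Y) : ℝ := 1 / ‖x - y.1‖ + 1 / ‖x - y.2‖
def U3 (D l : ℝ) (p : Z) : ℝ := V D p.1 + U2 D l p.2 + l * Wx p.1 p.2
/-- A noninteracting potential. -/
def v3 (v : X → ℝ) (p : Z) : ℝ := v p.1 + v p.2.1 + v p.2.2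

def Anti12 (A : Z → ℝ) : Prop := ∀ x y z : X, A (y, (x, z)) = -A (x, (y, z))
def Anti13 (A : Z → ℝ) : Prop := ∀ x y z : X, A (z, (y, x)) = -A (x, (y, z))
def Anti23 (A : Z → ℝ) : Prop := ∀ x y z : X, A (x, (z, y)) = -A (x, (y, z))

/-- The determinant `(g ∧ u) ⊗ g`. -/
def A0 (g u : X → ℝ) (p : Z) : ℝ := (g p.1 * u p.2.1 - u p.1 * g p.2.1) * g p.2.2 / √2

/-- `A` minimises the scaled three-electron form among functions antisymmetric in electrons 1, 2. -/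
def IsMin (D l : ℝ) (A : Z → ℝ) : Prop :=
  ∀ B : Z → ℝ, H1 eZ B → Anti12 B → ip B B = 1 → qf eZ (U3 D l) A A ≤ qf eZ (U3 D l) B B

/-- The slices of `A`: an electron of the majority spin at `x` ... -/
def F1 (A : Z → ℝ) (p : Z) : ℝ := √2 * A p
/-- ... or the electron of the minority spin at `x`. -/
def F3 (A : Z → ℝ) (p : Z) : ℝ := A (p.2.1, (p.2.2, p.1))
/-- The density of `A`. -/
def rho (A : Z → ℝ) (x : X) : ℝ := (∫ y, F1 A (x, y) ^ 2) + ∫ y, F3 A (x, y) ^ 2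

/-- The density of one real component. -/
def den (F : Z → ℝ) (x : X) : ℝ≥0∞ :=
  (∫⁻ y : Y, ENNReal.ofReal (F (x, y) ^ 2)) + (∫⁻ y : Y, ENNReal.ofReal (F (y.1, (x, y.2)) ^ 2)) +
    ∫⁻ y : Y, ENNReal.ofReal (F (y.1, (y.2, x)) ^ 2)

/-- A ground-state ensemble for `v` with density `ρ`, split into real components. -/
structure Ens (v : X → ℝ) (p : ℕ → ℝ) (F : ℕ → (Fin 3 → Fin 2) × Bool → Z → ℝ) (ρ : X → ℝ) :
    Prop where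
  nn : ∀ k, 0 ≤ p k
  sum : HasSum p 1
  meas : ∀ k j, Measurable (F k j)
  h1 : ∀ k j, H1 eZ (F k j)
  anti : ∀ k j, Anti12 (F k j) ∨ Anti13 (F k j) ∨ Anti23 (F k j)
  nrm : ∀ k, ∑ j, ip (F k j) (F k j) = 1
  min : ∀ k, ∀ B : Z → ℝ, H1 eZ B → Anti12 B → ip B B = 1 →
    ∑ j, qf eZ (v3 v) (F k j) (F k j) ≤ qf eZ (v3 v) B B
  dens : ∀ᵐ x : X, ENNReal.ofReal (ρ x) = ∑' k, ENNReal.ofReal (p k) * ∑ j, den (F k j) x

/-! ### The data handed from block to block -/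

/-- One-body data: `g` even, `u` odd, constants `c, C` independent of `D`. -/
structure OB (c C D : ℝ) (g u : X → ℝ) (eg eu : ℝ) : Prop where
  c_pos : 0 < c
  c_le : c ≤ 1 / 10
  C_ge : 1 ≤ C
  D_ge : 1000 ≤ D
  mg : Measurable g
  mu : Measurable u
  hg : H1 eX g
  hu : H1 eX u
  g_even : ∀ x, g (rf x) = g x
  u_odd : ∀ x, u (rf x) = -u x
  g_nn : ∀ x, 0 ≤ g x
  u_nn : ∀ x : X, 0 < x 2 → 0 ≤ u x
  ng : ip g g = 1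
  nu : ip u u = 1
  eqg : ∀ φ, H1 eX φ → qf eX (V D) g φ = eg * ip g φ
  equ : ∀ φ, H1 eX φ → qf eX (V D) u φ = eu * ip u φ
  lt : eg < eu
  eg_near : |eg + 1 / 2| ≤ 1 / 1000
  eu_near : |eu + 1 / 2| ≤ 1 / 1000
  del : eu - eg ≤ C * Real.exp (-(3 / 2) * D)
  gap : ∀ f, H1 eX f →
    (eu + c) * ip f f - (eu + c - eg) * ip g f ^ 2 - c * ip u f ^ 2 ≤ qf eX (V D) f f
  g_up : ∀ᵐ x : X, g x ≤
    C * (Real.exp (-(999 / 1000) * tp D x) + Real.exp (-(999 / 1000) * tm D x))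
  g_lo : ∀ᵐ x : X,
    C⁻¹ * (Real.exp (-(1001 / 1000) * tp D x) + Real.exp (-(1001 / 1000) * tm D x)) ≤ g x
  u_up : ∀ᵐ x : X, 0 < x 2 → u x ≤
    C * (Real.exp (-(999 / 1000) * tp D x) - Real.exp (-(999 / 1000) * tm D x))
  u_lo : ∀ᵐ x : X, 0 < x 2 →
    C⁻¹ * (Real.exp (-(1001 / 1000) * tp D x) - Real.exp (-(1001 / 1000) * tm D x)) ≤ u x
  harn : ∀ x0 : X, ∃ m : ℝ, 0 < m ∧ ∀ᵐ x : X, x ∈ ball x0 8 → m ≤ g x ∧ g x ≤ C * m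

/-- Many-body data: the two-electron ground state `Ψ` and the three-electron state `A`;
`M` depends on `D` only, `η → 0` as `l → 0`. -/
structure MB (c D l : ℝ) (g u : X → ℝ) (eg eu M η : ℝ) (Ψ : Y → ℝ) (E2 : ℝ) (A : Z → ℝ) (E : ℝ) :
    Prop where
  l_pos : 0 < l
  l_le : l ≤ η
  M_ge : 1 ≤ M
  mΨ : Measurable Ψ
  hΨ : H1 eY Ψ
  nΨ : ip Ψ Ψ = 1
  Ψ_swap : ∀ y : Y, Ψ y.swap = Ψ y
  Ψ_even : ∀ y : Y, Ψ (rfY y) = Ψ y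
  eqΨ : ∀ φ, H1 eY φ → qf eY (U2 D l) Ψ φ = E2 * ip Ψ φ
  gapΨ : ∀ G, H1 eY G →
    E2 * ip G G + (eu - eg) / 2 * (ip G G - ip Ψ G ^ 2) ≤ qf eY (U2 D l) G G
  gap2a : ∀ G, H1 eY G → ip (fun y : Y => g y.1 * g y.2) G = 0 →
    (eg + eu) * ip G G ≤ qf eY (U2 D l) G G
  gap2b : ∀ G, H1 eY G → ip (fun y : Y => g y.1 * g y.2) G = 0 →
    ip (fun y : Y => g y.1 * u y.2) G = 0 → ip (fun y : Y => u y.1 * g y.2) G = 0 →
    ip (fun y : Y => u y.1 * u y.2) G = 0 → (eg + eu + c) * ip G G ≤ qf eY (U2 D l) G G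
  E2_ge : 2 * eg ≤ E2
  E2_le : E2 ≤ 2 * eg + η
  Ψ_close : ∫ y : Y, (Ψ y - g y.1 * g y.2) ^ 2 ≤ η ^ 2
  g_bd : ∀ᵐ x : X, |g x| ≤ M * Real.exp (-(9 / 10) * ‖x‖)
  u_bd : ∀ᵐ x : X, |u x| ≤ M * Real.exp (-(9 / 10) * ‖x‖)
  Ψ_bd : ∀ᵐ y : Y, |Ψ y| ≤ M * Real.exp (-(9 / 10) * (‖y.1‖ + ‖y.2‖))
  mA : Measurable A
  hA : H1 eZ A
  nA : ip A A = 1
  anti : Anti12 A
  odd : ∀ p, A (rfZ p) = -A p
  eqA : ∀ φ, H1 eZ φ → qf eZ (U3 D l) A φ = E * ip A φ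
  E_ge : 2 * eg + eu ≤ E
  E_le : E ≤ 2 * eg + eu + η
  A_bd : ∀ᵐ p : Z, |A p| ≤ M * Real.exp (-(9 / 10) * (‖p.1‖ + ‖p.2.1‖ + ‖p.2.2‖))
  A_close : ∀ᵐ p : Z, |A p - A0 g u p| ≤ η

/-- The channel functions on `ℝ³` (see the notes): `R = √ρ`; `Ev`, `O` norms of the parts that
are odd, even in the two other electrons; `d, e1, e2, e3` scalar channels; `No, Ne, N` norms of
the remainders; `k` the induced-dipole coefficient. -/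
structure Fns where
  R : X → ℝ
  Ev : X → ℝ
  O : X → ℝ
  No : X → ℝ
  Ne : X → ℝ
  N : X → ℝ
  d : X → ℝ
  e1 : X → ℝ
  e2 : X → ℝ
  e3 : X → ℝ
  k : X → ℝ

/-- The even scalar channel. -/
def Fns.e (f : Fns) (x : X) : ℝ := (2 * f.e1 x + f.e2 x + f.e3 x) / √6

/-- The common level `a = 2 V + m2`, `m2 = 2 (E2 - E)`. -/
def aa (D m2 : ℝ) (x : X) : ℝ := 2 * V D x + m2
/-- The level with the Hartree term, in the exterior region. -/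
def aS (D m2 l M : ℝ) (x : X) : ℝ := aa D m2 x + 4 * l / ‖x‖ - l * M / ‖x‖ ^ 2
/-- The exterior region. -/
def Ext (r : ℝ) : Set X := {x | r ≤ ‖x‖}
def ex (a : ℝ) (x : X) : ℝ := Real.exp (-a * ‖x‖)

/-- The refined source of the even channels. -/
def srcE (C1 D l M : ℝ) (f : Fns) (x : X) : ℝ :=
  2 * l * ((C1 * D * |x 2| / ‖x‖ ^ 3 + M * ex (2 / 5) x) * |f.d x| + 8 * |x 2| / ‖x‖ ^ 2 * f.No x +
    M * ex (13 / 10) x)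

/-- The weak inequalities of the channel functions. -/
structure Chan (c C1 D l : ℝ) (g u : X → ℝ) (eg eu M η m2 de : ℝ) (f : Fns) : Prop where
  l_pos : 0 < l
  l_le : l ≤ η
  M_ge : 1 ≤ M
  m2_near : |m2 + 2 * eu| ≤ η
  de_le : de ≤ eu - eg
  de_ge : eu - eg - η ≤ de
  hR : H1 eX f.R
  hEv : H1 eX f.Ev
  hO : H1 eX f.O
  hNo : H1 eX f.No
  hNe : H1 eX f.Ne
  hN : H1 eX f.N
  hd : H1 eX f.d
  he1 : H1 eX f.e1
  he2 : H1 eX f.e2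
  he3 : H1 eX f.e3
  mkk : Measurable f.k
  nn : ∀ x, 0 ≤ f.R x ∧ 0 ≤ f.Ev x ∧ 0 ≤ f.O x ∧ 0 ≤ f.No x ∧ 0 ≤ f.Ne x ∧ 0 ≤ f.N x
  par : ∀ᵐ x : X, f.R (rf x) = f.R x ∧ f.Ev (rf x) = f.Ev x ∧ f.O (rf x) = f.O x ∧
    f.No (rf x) = f.No x ∧ f.Ne (rf x) = f.Ne x ∧ f.N (rf x) = f.N x ∧ f.d (rf x) = -f.d x ∧
    f.e1 (rf x) = f.e1 x ∧ f.e2 (rf x) = f.e2 x ∧ f.e3 (rf x) = f.e3 x ∧ f.k (rf x) = -f.k x
  pyth : ∀ᵐ x : X, f.R x ^ 2 = f.Ev x ^ 2 + f.O x ^ 2 ∧ f.O x ^ 2 = f.d x ^ 2 + f.No x ^ 2 ∧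
    f.Ev x ^ 2 = f.e1 x ^ 2 + f.e2 x ^ 2 + f.e3 x ^ 2 + f.Ne x ^ 2 ∧
    f.R x ^ 2 = f.e x ^ 2 + f.d x ^ 2 + f.N x ^ 2
  bd : ∀ᵐ x : X, f.R x ≤ M * ex (9 / 10) x
  strip : Strip f.O
  close : ∀ᵐ x : X, |f.d x - u x| ≤ η ∧ |f.e1 x - g x| ≤ η ∧ |f.e2 x| ≤ η ∧ |f.e3 x - g x| ≤ η ∧
    f.No x ≤ η ∧ f.Ne x ≤ η
  mass : ip f.R f.R = 3
  massE : |ip f.Ev f.Ev - 2| ≤ η
  energy : (dir eX f.Ev f.Ev + dir eX f.O f.O) / 2 + ∫ x, V D x * f.R x ^ 2 ≤ 2 * eg + eu + η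
  subR : Sub eX univ f.R (aa D m2) 0
  subN : Sub eX univ f.N (aa D m2) fun x => l * M * f.R x
  subd : ∀ σ : ℝ, |σ| ≤ 1 → Sub eX univ (fun x => σ * f.d x) (aa D m2) fun x => l * M * f.R x
  sube : ∀ σ : ℝ, |σ| ≤ 1 →
    Sub eX univ (fun x => σ * f.e x) (fun x => aa D m2 x + 2 * de) fun x => l * M * f.R x
  xR : Sub eX (Ext (6 * D)) f.R (aS D m2 l M) 0
  xEv : Sub eX (Ext (6 * D)) f.Ev (fun x => aa D m2 x + 2 * de)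
    fun x => 2 * l * (8 * |x 2| / ‖x‖ ^ 2 * f.O x + M * ex (13 / 10) x)
  xEv' : Sub eX (Ext (6 * D)) f.Ev (fun x => aa D m2 x + 2 * de) (srcE C1 D l M f)
  xO : Sub eX (Ext (6 * D)) f.O (aS D m2 l M)
    fun x => 2 * l * (8 * |x 2| / ‖x‖ ^ 2 * f.Ev x + M * ex (13 / 10) x)
  xd : Sub eX (Ext (6 * D)) (fun x => -f.d x) (fun x => aa D m2 x + 4 * l / ‖x‖)
    fun x => l * M * (f.O x / ‖x‖ ^ 2 + (|x 2| / ‖x‖ ^ 3 + ex (2 / 5) x) * f.Ev x)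
  xNo : Sub eX (Ext (6 * D)) f.No (fun x => aa D m2 x + (eu - eg))
    fun x => l * M * (|f.d x| / ‖x‖ ^ 2 + |x 2| / ‖x‖ ^ 2 * f.Ev x + ex (13 / 10) x)
  xNe : Sub eX (Ext (6 * D)) f.Ne (fun x => aa D m2 x + 2 * de + 2 * c)
    fun x => l * M * f.Ev x + srcE C1 D l M f x
  xe : ∀ α1 α2 α3 : ℝ, |α1| ≤ 1 → |α2| ≤ 1 → |α3| ≤ 1 →
    Sub eX (Ext (6 * D)) (fun x => α1 * f.e1 x + α2 * f.e2 x + α3 * f.e3 x)
      (fun x => aa D m2 x + 2 * de) fun x => 2 * l * (α1 + α2) * f.k x * f.d x +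
        l * M * (f.Ev x + (|x 2| / ‖x‖ ^ 3 + ex (2 / 5) x) * f.No x)
  k_up : ∀ x : X, 6 * D ≤ ‖x‖ → |f.k x| ≤ C1 * D * |x 2| / ‖x‖ ^ 3 + M * ex (2 / 5) x
  k_lo : ∀ x : X, 6 * D ≤ ‖x‖ → 0 < x 2 → C1⁻¹ * D * x 2 / ‖x‖ ^ 3 - M * ex (2 / 5) x ≤ f.k x

/-- The condition on a ball under which the sphere barrier works. -/
def BC (Λ : ℝ) (f : Fns) (x0 : X) : Prop :=
  ∃ α L m : ℝ, 0 ≤ α ∧ α ≤ 1 / 100 ∧ 0 ≤ L ∧ α * (L + 2) ≤ 1 / 2 ∧ 0 < m ∧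
    ∀ᵐ x : X, x ∈ ball x0 8 → m ≤ f.e x ∧ f.e x ≤ Λ * m ∧
      f.N x ^ 2 ≤ 7 / 20 * f.e x ^ 2 + α / 20 * f.d x ^ 2 ∧ f.R x ≤ Real.exp L * f.e x

/-- The inner ball and the slab. -/
def Sig (r h : ℝ) : Set X := {x | ‖x‖ ≤ r ∨ |x 2| ≤ h}

/-- The pointwise profiles of the channel functions (`δ0 = eu - eg`). -/
structure Prof (Λ C2 K R0 ϱ D l : ℝ) (g : X → ℝ) (δ0 M m2 : ℝ) (f : Fns) : Prop where
  Λ_ge : 1 ≤ Λ
  K_ge : 1 ≤ K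
  R0_ge : 6 * D + 100 ≤ R0
  m2_near : |m2 - 1| ≤ 1 / 100
  pos : LocPos f.e
  inner : ∀ᵐ x : X, ‖x‖ ≤ 5 * R0 → g x ≤ f.e x ∧ f.e x ≤ 2 * g x
  core : ∀ᵐ x : X, tp D x ≤ 20 ∨ tm D x ≤ 20 → f.R x ≤ Λ * f.e x
  dlo : ∀ᵐ x : X, 0 < x 2 → -f.e x / 10 ≤ f.d x
  bc : ∀ x0 : X, ‖x0‖ ≤ 4 * R0 + 4 ∨ x0 2 = 0 → BC Λ f x0
  sube : ∀ σ : ℝ, |σ| ≤ 1 →
    Sub eX (Sig (5 * R0) 8) (fun x => σ * f.e x) (aa D m2) fun x => Λ * f.e x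
  subd : ∀ σ : ℝ, |σ| ≤ 1 → Sub eX univ (fun x => σ * f.d x) (aa D m2) f.R
  subN : Sub eX univ f.N (aa D m2) f.R
  slab : ∃ Pi : ℝ → ℝ, ContDiffOn ℝ 1 Pi (Ioi (R0 / 2)) ∧
    (∀ s, R0 / 2 < s → 0 < Pi s ∧ deriv Pi s ≤ -Pi s / 2) ∧
    ∀ᵐ x : X, |x 2| ≤ 3 → R0 ≤ sx x → Pi (sx x) ≤ f.e x ∧ f.e x ≤ K * Pi (sx x)
  decay : ∀ y κ : X → ℝ, LH eX y → Measurable κ → (∀ x, 0 ≤ κ x ∧ κ x ≤ 1) →
    (∀ᵐ x : X, 0 ≤ y x ∧ y x ≤ f.R x) →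
    Sub eX (Hs ∩ Ext R0) y (fun x => aS D m2 l M x + δ0 * κ x) 0 →
    (∀ᵐ x : X, 0 < x 2 → y x ≤ f.R x / 4 → 1 / 2 ≤ κ x) →
    (∀ᵐ x : X, R0 ≤ ‖x‖ → ‖x‖ ≤ R0 + 1 → ϱ ≤ x 2 → y x ≤ C2 * g x) →
    ∀ t ε : ℝ, 0 < t → 0 < ε → ∃ r1 : ℝ, ∀ᵐ x : X, t ≤ x 2 → r1 ≤ ‖x‖ → y x ≤ ε * f.R x
  comp : ∀ t : ℝ, 0 < t → t ≤ 1 → ∃ Ct r1 : ℝ, ∀ x0 : X, 2 * t ≤ x0 2 → r1 ≤ ‖x0‖ →
    ∃ m : ℝ, 0 < m ∧ ∀ᵐ x : X, x ∈ ball x0 t → m ≤ f.R x ∧ f.R x ≤ Ct * m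
  low : ∀ κ : ℝ, 0 < κ → m2 < κ ^ 2 → ∃ c' : ℝ, 0 < c' ∧ ∀ᵐ x : X, |x 2| ≤ 1 → c' * ex κ x ≤ f.e x

/-- The current `J = b ∇P - P ∇b`. -/
def J (P b : X → ℝ) (i : Fin 3) (x : X) : ℝ := b x * wd (eX i) P x - P x * wd (eX i) b x

/-- The dual certificate. -/
structure Cert (δ : ℝ) (P b R : X → ℝ) : Prop where
  mP : Measurable P
  mb : Measurable b
  hP : H1 eX P
  hb : H1 eX b
  P_even : ∀ x, P (rf x) = P x
  b_odd : ∀ x, b (rf x) = -b x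
  P_nn : ∀ x, 0 ≤ P x
  b_nn : ∀ x : X, 0 < x 2 → 0 ≤ b x
  sq : ∀ᵐ x : X, P x ^ 2 + b x ^ 2 = R x ^ 2
  nP : ip P P = 2
  nb : ip b b = 1
  el : ∀ φ : X → ℝ, H1 eX φ → (∃ k : ℝ, ∀ᵐ x : X, |φ x| ≤ k) → (∀ᵐ x : X, φ (rf x) = -φ x) →
    (∫ x, ∑ i, J P b i x * wd (eX i) φ x) + 2 * δ * ∫ x, P x * b x * φ x = 0

/-- `|∇f - (f/P) ∇P|²`. -/
def Dsq (P f : X → ℝ) (x : X) : ℝ := ∑ i, (wd (eX i) f x - f x / P x * wd (eX i) P x) ^ 2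

/-- The certificate inequality. -/
structure Poinc (δ : ℝ) (P b : X → ℝ) : Prop where
  pos : ∀ᵐ x : X, 0 < P x
  intJ : Integrable fun x => ∑ i, (J P b i x / P x) ^ 2
  Jle : (∫ x, ∑ i, (J P b i x / P x) ^ 2) / 2 ≤ δ
  main : ∀ f : X → ℝ, H1 eX f → Integrable (Dsq P f) →
    δ * (ip f f - ip P f ^ 2 / 2) ≤ (∫ x, Dsq P f x) / 2

/-- The Poincare inequality with constant `c` for bounded even functions and the weight `P²`. -/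
def EvenP (c : ℝ) (P : X → ℝ) : Prop :=
  ∀ η : X → ℝ, H1 eX η → (∃ k : ℝ, ∀ᵐ x : X, |η x| ≤ k) → (∀ᵐ x : X, η (rf x) = η x) →
    (∫ x, P x ^ 2 * η x ^ 2) - (∫ x, P x ^ 2 * η x) ^ 2 / 2 ≤ c * ∫ x, P x ^ 2 * dot eX η η x

/-- `P / R → 0` at infinity away from the plane. -/
def ThetaDecay (P R : X → ℝ) : Prop :=
  ∀ t ε : ℝ, 0 < t → 0 < ε → ∃ r1 : ℝ, ∀ᵐ x : X, t ≤ x 2 → r1 ≤ ‖x‖ → P x ≤ ε * R x

end Crest.Agent.R335
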