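/-
R335/Blocks: the statements of the blocks (FROZEN)
Skeleton by helper48 (row 335); keep the statements unchanged, add any helper lemmas you like.
-/
import Crest.Agent.R335.Defs

set_option autoImplicit false
set_option linter.unusedSectionVars false
set_option linter.unusedVariables false
set_option linter.unusedSimpArgs false

noncomputable section

namespace Crest.Agent.R335

open MeasureTheory Set Filter Topology Metric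
open scoped ENNReal


open Crest.MathPhysics.ThreeBody

/-- Block OB: the one-body problem. -/
def StOB : Prop := ∃ c C D0 : ℝ, ∀ D : ℝ, D0 ≤ D → ∃ g u eg eu, OB c C D g u eg eu

/-- Block MB: the two- and three-body ground states for small coupling. -/
def StMB : Prop := ∀ c C D g u eg eu, OB c C D g u eg eu → ∃ M : ℝ, ∀ η : ℝ, 0 < η →
  ∃ l0 : ℝ, 0 < l0 ∧ ∀ l : ℝ, 0 < l → l < l0 →
    ∃ Ψ E2 A E, MB c D l g u eg eu M η Ψ E2 A E ∧ IsMin D l A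

/-- Block KA: the channel functions. -/
def StKato : Prop := ∀ c C : ℝ, ∃ C1 : ℝ, 1 ≤ C1 ∧ ∀ D g u eg eu, OB c C D g u eg eu →
  ∀ M : ℝ, ∃ M' : ℝ, ∀ η' : ℝ, 0 < η' → ∃ η : ℝ, 0 < η ∧ ∀ l Ψ E2 A E,
    MB c D l g u eg eu M η Ψ E2 A E → ∃ f : Fns,
      Chan c C1 D l g u eg eu M' η' (2 * (E2 - E)) (eg + eu - E2) f ∧
        ∀ᵐ x : X, f.R x ^ 2 = rho A x

/-- Block PR: the pointwise profiles. -/
def StProf : Prop := ∀ c C C1 C2 : ℝ, 1 ≤ C1 → ∃ Λ : ℝ, ∀ θ : ℝ, 0 < θ → ∃ D0 : ℝ, ∀ D : ℝ,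
  D0 ≤ D → ∀ g u eg eu, OB c C D g u eg eu → ∃ K : ℝ, K ^ 2 * (eu - eg) ≤ θ ∧
    ∀ M Rmin : ℝ, ∃ R0 ϱ η0 : ℝ, Rmin ≤ R0 ∧ 0 < ϱ ∧ ϱ ≤ 1 ∧ 0 < η0 ∧
      ∀ η l m2 de f, η ≤ η0 → Chan c C1 D l g u eg eu M η m2 de f →
        Prof Λ C2 K R0 ϱ D l g (eu - eg) M m2 f

/-- Block CE: the certificate. -/
def StCert : Prop := ∀ c C D g u eg eu, OB c C D g u eg eu → ∀ η3 : ℝ, 0 < η3 →
  ∃ η0 : ℝ, 0 < η0 ∧ ∀ C1 l M η m2 de f, η ≤ η0 → Chan c C1 D l g u eg eu M η m2 de f →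
    ∃ P b δ, Cert δ P b f.R ∧ ∫ x, (P x - √2 * g x) ^ 2 ≤ η3 ^ 2 ∧ |δ - (eu - eg)| ≤ η3

/-- Block LO: the lower bound of `P` in the inner ball and in the slab. -/
def StLow : Prop := ∀ Λ : ℝ, ∃ Λ' : ℝ, 1 ≤ Λ' ∧ ∀ c C D g u eg eu, OB c C D g u eg eu →
  ∀ R0 : ℝ, ∃ η3 : ℝ, 0 < η3 ∧ ∀ C1 C2 K ϱ l M η m2 de f δ P b,
    Chan c C1 D l g u eg eu M η m2 de f → Prof Λ C2 K R0 ϱ D l g (eu - eg) M m2 f →
    Cert δ P b f.R → 0 ≤ δ → δ ≤ 1 → ∫ x, (P x - √2 * g x) ^ 2 ≤ η3 ^ 2 →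
      ∀ᵐ x : X, x ∈ Sig (4 * R0) 3 → f.e x ≤ Λ' * P x

/-- Positivity, the energy of `b`, and the Poincare inequality for odd functions. -/
structure OddP (δ : ℝ) (P b : X → ℝ) : Prop where
  pos : ∀ᵐ x : X, 0 < P x
  intJ : Integrable fun x => ∑ i, (J P b i x / P x) ^ 2
  Jle : (∫ x, ∑ i, (J P b i x / P x) ^ 2) / 2 ≤ δ
  odd : ∀ η : X → ℝ, H1 eX η → (∃ k : ℝ, ∀ᵐ x : X, |η x| ≤ k) → (∀ᵐ x : X, η (rf x) = -η x) →
    2 * δ * ∫ x, P x ^ 2 * η x ^ 2 ≤ ∫ x, P x ^ 2 * dot eX η η x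

/-- Block OD. -/
def StOdd : Prop := ∀ δ P b R (M : ℝ), Cert δ P b R → 0 ≤ δ → LocPos R → (∀ᵐ x : X, |R x| ≤ M) →
  OddP δ P b

/-- `R tan (θ/2)` and `cos θ` on the upper half space. -/
def yy (P b R : X → ℝ) (x : X) : ℝ := R x * P x / (R x + max (b x) 0)
def cs (P b : X → ℝ) (x : X) : ℝ := max (b x) 0 / √(P x ^ 2 + b x ^ 2)

/-- Block RT: `R tan (θ/2)` is a subsolution in the upper half space. -/
def StRtwo : Prop := ∀ δ P b R (M : ℝ), Cert δ P b R → 0 ≤ δ → H1 eX R → LocPos R →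
  (∀ᵐ x : X, |R x| ≤ M) → LH eX (yy P b R) ∧
    (∀ᵐ x : X, P x / 2 ≤ yy P b R x ∧ yy P b R x ≤ P x ∧ P x ≤ R x ∧
      (yy P b R x ≤ R x / 4 → 0 < x 2 → 1 / 2 ≤ cs P b x)) ∧
    ∀ (S : Set X) (a : X → ℝ), MeasurableSet S → LI S a → Sub eX S R a 0 →
      Sub eX (Hs ∩ S) (yy P b R) (fun x => a x + 2 * δ * cs P b x) 0

/-- Block EV: the Poincare inequality for even functions. -/
def StEven : Prop := ∀ c C Λ Λ' : ℝ, 1 ≤ Λ' → ∃ Λ'' : ℝ, 1 ≤ Λ'' ∧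
  ∀ D g u eg eu C1 C2 K R0 ϱ l M η m2 de f δ P b, OB c C D g u eg eu →
    Chan c C1 D l g u eg eu M η m2 de f → Prof Λ C2 K R0 ϱ D l g (eu - eg) M m2 f →
    Cert δ P b f.R → 0 ≤ δ → Λ'' * K ≤ R0 →
    (∀ᵐ x : X, x ∈ Sig (4 * R0) 3 → f.e x ≤ Λ' * P x) → EvenP (Λ'' * K ^ 2) P

/-- Block PO: from bounded even and odd functions to all of `H¹`. -/
def StPoinc : Prop := ∀ δ c P b R (M : ℝ), Cert δ P b R → 0 ≤ δ → 2 * δ * c ≤ 1 →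
  (∀ᵐ x : X, |R x| ≤ M) → OddP δ P b → EvenP c P → Poinc δ P b

/-- Block TH: the angle tends to zero at infinity. -/
def StTheta : Prop := ∀ C : ℝ, ∃ C2 : ℝ, ∀ c D g u eg eu, OB c C D g u eg eu →
  ∀ R0 ϱ : ℝ, 0 < ϱ → ϱ ≤ 1 → ∃ η3 : ℝ, 0 < η3 ∧ ∀ Λ C1 K l M η m2 de f δ P b,
    Chan c C1 D l g u eg eu M η m2 de f → Prof Λ C2 K R0 ϱ D l g (eu - eg) M m2 f →
    Cert δ P b f.R → (eu - eg) / 2 ≤ δ → ∫ x, (P x - √2 * g x) ^ 2 ≤ η3 ^ 2 → ThetaDecay P f.R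

/-- Block KS: the orbitals of the certificate are eigenfunctions of a representing potential. -/
def StKS : Prop := ∀ v p F ρ δ P b R, IsSumClassPotential v → Cert δ P b R → 0 ≤ δ →
  Poinc δ P b → Ens v p F ρ → (∀ᵐ x : X, R x ^ 2 = ρ x) → ∃ e1 : ℝ,
    (∀ φ, H1 eX φ → qf eX v P φ = e1 * ip P φ) ∧ ∀ φ, H1 eX φ → qf eX v b φ = (e1 + δ) * ip b φ

/-- Block FI: the contradiction. -/
def StFinal : Prop := ∀ c C D g u eg eu Λ Λ' C1 C2 K R0 ϱ l M η m2 de f δ P b v e1,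
  OB c C D g u eg eu → Chan c C1 D l g u eg eu M η m2 de f →
  Prof Λ C2 K R0 ϱ D l g (eu - eg) M m2 f → Cert δ P b f.R → 0 < δ → ThetaDecay P f.R →
  (∀ᵐ x : X, x ∈ Sig (4 * R0) 3 → f.e x ≤ Λ' * P x) → IsSumClassPotential v →
  (∀ φ, H1 eX φ → qf eX v P φ = e1 * ip P φ) →
  (∀ φ, H1 eX φ → qf eX v b φ = (e1 + δ) * ip b φ) → False

/-- Block BR: spin, scaling and the Fourier form of the kinetic energy. -/
def StBridge : Prop := ∀ (D : ℝ) (n : ℕ), 1 ≤ n → ∀ A : Z → ℝ, Measurable A → H1 eZ A →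
  Anti12 A → ip A A = 1 → IsMin D (1 / n) A → ∃ Ψ : Wave3,
    IsGroundState (coulombPotential n (EuclideanSpace.single 2 (D / n))
      (EuclideanSpace.single 2 (-(D / n)))) Ψ ∧
    (HasEnsembleRep Ψ → ∃ v p F, IsSumClassPotential v ∧ Ens v p F (rho A))

end Crest.Agent.R335
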