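/-
R335/Assemble: the result from the blocks
Skeleton by helper48 (row 335); keep the statements unchanged, add any helper lemmas you like.
-/
import Crest.Agent.R335.Blocks
import Crest.Agent.R335.T.Chain

set_option autoImplicit false
set_option linter.unusedSectionVars false
set_option linter.unusedVariables false
set_option linter.unusedSimpArgs false

noncomputable section

namespace Crest.Agent.R335

open MeasureTheory Set Filter Topology Metric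
open scoped ENNReal


open Crest.MathPhysics.ThreeBody

theorem Chan.R_bdd {c C1 D l : ℝ} {g u : X → ℝ} {eg eu M η m2 de : ℝ} {f : Fns}
    (h : Chan c C1 D l g u eg eu M η m2 de f) : ∀ᵐ x : X, |f.R x| ≤ M := by
  filter_upwards [h.bd] with x hx
  rw [abs_of_nonneg (h.nn x).1]
  refine hx.trans ?_
  have : ex (9 / 10) x ≤ 1 := by
    unfold ex
    exact Real.exp_le_one_iff.2 (by nlinarith [norm_nonneg x])
  nlinarith [h.M_ge]

theorem Chan.e_le_R {c C1 D l : ℝ} {g u : X → ℝ} {eg eu M η m2 de : ℝ} {f : Fns}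
    (h : Chan c C1 D l g u eg eu M η m2 de f) : ∀ᵐ x : X, |f.e x| ≤ f.R x := by
  filter_upwards [h.pyth] with x hx
  exact abs_le_of_sq_le_sq' (by nlinarith [hx.2.2.2, sq_nonneg (f.d x), sq_nonneg (f.N x)])
    (h.nn x).1 |> abs_le.2

theorem locPos_R {c C1 D l : ℝ} {g u : X → ℝ} {eg eu M η m2 de : ℝ} {f : Fns}
    (h : Chan c C1 D l g u eg eu M η m2 de f) (hp : LocPos f.e) : LocPos f.R :=
  hp.mono (h.e_le_R.mono fun x hx => (le_abs_self _).trans hx)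

theorem assemble (hOB : StOB) (hMB : StMB) (hKA : StKato) (hPR : StProf) (hCE : StCert)
    (hLO : StLow) (hOD : StOdd) (hEV : StEven) (hPO : StPoinc) (hTH : StTheta) (hKS : StKS)
    (hFI : StFinal) (hBR : StBridge) :
    ∃ D₀ : ℝ, ∀ D : ℝ, D₀ ≤ D → ∃ Z₀ : ℕ, ∀ n : ℕ, Z₀ ≤ n →
      ∃ Ψ : Wave3, IsGroundState (coulombPotential n (EuclideanSpace.single 2 (D / n))
          (EuclideanSpace.single 2 (-(D / n)))) Ψ ∧ ¬ HasEnsembleRep Ψ := by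
  obtain ⟨c, C, D1, hob⟩ := hOB
  obtain ⟨C1, hC1, hka⟩ := hKA c C
  obtain ⟨C2, hth⟩ := hTH C
  obtain ⟨Λ, hpr⟩ := hPR c C C1 C2 hC1
  obtain ⟨Λ', hΛ', hlo⟩ := hLO Λ
  obtain ⟨Λ'', hΛ'', hev⟩ := hEV c C Λ Λ' hΛ'
  obtain ⟨D2, hpr⟩ := hpr (1 / (4 * Λ'')) (by positivity)
  refine ⟨max D1 D2, fun D hD => ?_⟩
  obtain ⟨g, u, eg, eu, ob⟩ := hob D ((le_max_left _ _).trans hD)
  obtain ⟨K, hK, hpr⟩ := hpr D ((le_max_right _ _).trans hD) g u eg eu ob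
  obtain ⟨M, hmb⟩ := hMB c C D g u eg eu ob
  obtain ⟨M', hka⟩ := hka D g u eg eu ob M
  obtain ⟨R0, ϱ, η0, hR0, hϱ, hϱ1, hη0, hpr⟩ := hpr M' (Λ'' * K)
  obtain ⟨a1, ha1, hlo⟩ := hlo c C D g u eg eu ob R0
  obtain ⟨a2, ha2, hth⟩ := hth c D g u eg eu ob R0 ϱ hϱ hϱ1
  have hδ0 : 0 < eu - eg := sub_pos.2 ob.lt
  have hδ1 : eu - eg ≤ 1 / 500 := by
    have h1 := abs_le.1 ob.eg_near
    have h2 := abs_le.1 ob.eu_near
    linarith
  set η3 := min (min a1 a2) ((eu - eg) / 2) with hη3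
  have hη3p : 0 < η3 := lt_min (lt_min ha1 ha2) (by linarith)
  obtain ⟨η1, hη1, hce⟩ := hCE c C D g u eg eu ob η3 hη3p
  obtain ⟨η, hη, hka⟩ := hka (min η0 η1) (lt_min hη0 hη1)
  obtain ⟨l0, hl0, hmb⟩ := hmb η hη
  obtain ⟨n0, hn0⟩ := exists_nat_gt (1 / l0)
  refine ⟨n0 + 1, fun n hn => ?_⟩
  have hn1 : 1 ≤ n := by omega
  have hnp : (0 : ℝ) < n := by exact_mod_cast hn1
  have hnl : (1 : ℝ) / n < l0 := by
    rw [div_lt_iff₀ hnp]
    have : (n0 : ℝ) ≤ n := by exact_mod_cast (by omega : n0 ≤ n)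
    rw [div_lt_iff₀ hl0] at hn0
    nlinarith
  obtain ⟨Ψ, E2, A, E, mb, hmin⟩ := hmb (1 / n) (by positivity) hnl
  obtain ⟨f, ch, hρ⟩ := hka _ Ψ E2 A E mb
  obtain ⟨Φ, hΦ, hens⟩ := hBR D n hn1 A mb.mA mb.hA mb.anti mb.nA hmin
  refine ⟨Φ, hΦ, fun hrep => ?_⟩
  obtain ⟨v, p, F, hv, ens⟩ := hens hrep
  have pr := hpr _ _ _ _ f (min_le_left _ _) ch
  obtain ⟨P, b, δ, ce, hcl, hδ⟩ := hce _ _ _ _ _ _ f (min_le_right _ _) ch
  have h3 : η3 ≤ (eu - eg) / 2 := min_le_right _ _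
  have hδa := abs_le.1 hδ
  have hδp : (eu - eg) / 2 ≤ δ := by linarith
  have hδq : δ ≤ 2 * (eu - eg) := by linarith
  have hsq : ∀ a : ℝ, η3 ≤ a → ∫ x, (P x - √2 * g x) ^ 2 ≤ a ^ 2 := fun a ha =>
    hcl.trans (pow_le_pow_left₀ hη3p.le ha 2)
  have low := hlo _ _ _ _ _ _ _ _ _ f δ P b ch pr ce (by linarith) (by linarith)
    (hsq _ ((min_le_left _ _).trans (min_le_left _ _)))
  have th := hth _ _ _ _ _ _ _ _ f δ P b ch pr ce hδp
    (hsq _ ((min_le_left _ _).trans (min_le_right _ _)))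
  have od := hOD δ P b f.R M' ce (by linarith) (locPos_R ch pr.pos) ch.R_bdd
  have ev := hev _ _ _ _ _ _ _ _ _ _ _ _ _ _ _ f δ P b ob ch pr ce (by linarith) hR0 low
  have hc : 2 * δ * (Λ'' * K ^ 2) ≤ 1 := by
    have h1 : K ^ 2 * (eu - eg) * (4 * Λ'') ≤ 1 := by
      rwa [le_div_iff₀ (by positivity)] at hK
    have h2 : 0 ≤ Λ'' * K ^ 2 := by positivity
    nlinarith
  have po := hPO δ _ P b f.R M' ce (by linarith) hc ch.R_bdd od ev
  obtain ⟨e1, h1, h2⟩ := hKS v p F _ δ P b f.R hv ce (by linarith) po ens hρ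
  exact hFI _ _ _ _ _ _ _ _ _ _ _ _ _ _ _ _ _ _ _ f δ P b v e1 ob ch pr ce (by linarith) th low hv
    h1 h2

end Crest.Agent.R335
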