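/-
R335/Final: the result
Skeleton by helper48 (row 335); keep the statements unchanged, add any helper lemmas you like.
-/
import Crest.Agent.R335.OB.Main
import Crest.Agent.R335.MB.Main
import Crest.Agent.R335.KA.Main
import Crest.Agent.R335.PR.Main
import Crest.Agent.R335.CE.Main
import Crest.Agent.R335.LO.Main
import Crest.Agent.R335.OD.Main
import Crest.Agent.R335.EV.Main
import Crest.Agent.R335.PO.Main
import Crest.Agent.R335.TH.Main
import Crest.Agent.R335.KS.Main
import Crest.Agent.R335.FI.Main
import Crest.Agent.R335.BR.Main
import Crest.Agent.R335.Assemble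

set_option autoImplicit false
set_option linter.unusedSectionVars false
set_option linter.unusedVariables false
set_option linter.unusedSimpArgs false

noncomputable section

namespace Crest.Agent.R335

open MeasureTheory Set Filter Topology Metric
open scoped ENNReal


open Crest.MathPhysics.ThreeBody

theorem final : ∃ D₀ : ℝ, ∀ D : ℝ, D₀ ≤ D → ∃ Z₀ : ℕ, ∀ n : ℕ, Z₀ ≤ n →
    ∃ Ψ : Wave3, IsGroundState (coulombPotential n (EuclideanSpace.single 2 (D / n))
        (EuclideanSpace.single 2 (-(D / n)))) Ψ ∧ ¬ HasEnsembleRep Ψ :=
  assemble stOB stMB stKato stProf stCert stLow stOdd stEven stPoinc stTheta stKS stFinal stBridge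

end Crest.Agent.R335
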