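/-
R335/Notes: the paper proof of row 335 (helper48).  Definitions: R335/Defs, statements of the
blocks: R335/Blocks, assembly (done): R335/Assemble, toolkit: R335/T/*.
Notation: r = |x|, z = x 2, t+ = tp D x, t- = tm D x, R = rf, h = -Δ/2 + V, δ0 = eu - eg, l = 1/Z.
"abs" = independent of D.  All weak computations are done in the algebra LH (T/Chain) with test
functions LT; limits with exists_cutoff, dominated convergence.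

## OB (one body)
(1) Hydrogen.  For f in H1 and p in X:  ½|∇f + f x̂|² integrates to ½ dir f f - ∫f²/|x-p| + ½∫f²
  (x̂ = wd of |x-p|, lh_norm; ∫∇(f²)·x̂ = -∫2f²/|x-p|: regularise x/√(r²+ε²) as in R338.hardy, test
  functions first).  With η = e^{r} f (f of bounded support, LH after truncation, or f = Tst):
  ∇f + f x̂ = e^{-r}∇η.  Poincare for the weight e^{-2r}: inf_κ ∫e^{-2r}(η-κ)² ≤ C ∫e^{-2r}|∇η|²:
  κ from poin_ball on B(p,4); outside use hardy_field with w = e^{-2r} x̂ (cut off near p;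
  div w = e^{-2r}(2/r-2) ≤ -e^{-2r} for r ≥ 2) for ζ = (1-χ)(η-κ)χ_n.  Result (H): for all f in H1
  ½dir f f - ∫f²/|x-p| ≥ -½ ip f f + c0 (ip f f - (ip φp f)²), φp = normalised e^{-|x-p|}.
(2) IMS (H1.dir_mul) with χ+ = cos, χ- = sin of (π/2)κ(1/2 - z/D): on supp χ+ (z ≥ -D/2) 1/t- ≤ 2/D.
  h(f) ≥ (-½ - C/D) ip f f + c0 Σ± (‖χ± f‖² - (ip φ± (χ± f))²).  For f even/odd both brackets are
  ± equal (take χ-(x) = χ+(Rx)), so f ⊥ ψ := χ+ φ+ gives h(f) ≥ E' ip f f, E' = -½ - C/D + c0.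
  Trial: φ = κ(t+/L)e^{-t+} ± reflection, disjoint supports, energy ≤ (-½ + C/L²) by (1).
  exists_min with T = rf, σ = ±1 gives g, u, eg, eu in [-½ - C/D, -½ + C/D²].  gap field: split f
  in even and odd part (qf and ip are block diagonal), c = c0/2.
(3) Signs: |g| is even with the same energy, eq_of_ip_sq, ip ψ g > 0 => g = |g| a.e.; replace g by
  |g|.  Same for u with oddExt |u| (Strip.of_odd, H1.oddExt_even).
(4) Boundedness g,|u| ≤ C abs: H1.kato + mv_global (U = 2|V|, ω = 0, int_ball_inv).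
(5) Core lower bound: from (2) 2(ip ψ g)² ≥ 1 - o(1), the tail of φ+ is small, so ∫_{B(De,T)} g ≥ c;
  mv_super (Δg ≤ 2g as V ≤ 0, sub_of_qf + Sub.change) gives g, u ≥ c(T0) on B(De, T0 + 30).
(6) Barriers e^{-μ t}: lap = (μ² - 2μ/t) e^{-μ t}.  With a = 2V - 2eg in [μg² - 4/T0, μg²] on
  O = {t+ > T0, t- > T0}, T0 = 10000, μ = 0.999 (super), 1.001 (sub): compare (sub case: apply it to
  -g and -w).  Odd case compare_half with B(t+) - B(t-): lap - a = (β(t+) - a)(B+ - B-) +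
  (β(t+) - β(t-))B-, β(t+) - β(t-) = -2μ(t- - t+)/(t+ t-), B+ - B- ≥ μ (t- - t+) B-;
  0 ≤ t- - t+ ≤ 2z for z > 0 (strip_coord).  In the core the bounds follow from (4), (5).
(7) harn: balls away from the nuclei: harnack (|a| bounded) + g_lo for m > 0; else (4), (5).
(8) eg < eu: else |u| is an even minimiser, |u| = g a.e., but Strip u and g ≥ c near the origin.
  del: trial function g·κ(z) (κ odd, ±1 for |z| ≥ 1): H1.dir_mul gives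
  h(gκ) - eg ‖gκ‖² = ½∫g²κ'² ≤ C∫_{|z|≤1} g² ≤ C e^{-1.5 D} by g_up.

## MB (many body)
(1) From OB.gap: for f in H1(X): h(f) ≥ eg ip f f + (eu + c - eg)(ip f f - (ip g f)² - (ip u f)²)
  + δ0 (ip u f)²; weaker forms lifted to Y and Z by Pot.qf_pb, slices and bessel_prod:
  q2⁰(G) ≥ 2eg‖G‖² + δ0(‖G‖² - ⟨gg,G⟩²) (family {g}); for G ⊥ gg,gu,ug,uu:
  q2⁰(G) ≥ (eg + eu + c)‖G‖² (family {g,u}).  On Z: A' = A - Σ⟨abc,A⟩abc (eigenfunctions,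
  Pot.eig_tensor), q3⁰(A') ≥ (2eg + eu + c)‖A'‖²; for Anti12 A only gug, ugg, guu, ugu occur, hence
  q3⁰(A) ≥ E0‖A‖² + γ(‖A‖² - ⟨A0,A⟩²), E0 = 2eg + eu, γ = min δ0 c.  The l-terms are ≥ 0.
(2) exists_min on Y (T = id, ψ = φ = gg, E' = 2eg + δ0) and on Z (T = swap 12, σ = -1, ψ = φ = A0,
  E' = E0 + γ): trial energies ≤ level + l C.  Closeness in L²: dist_sq_of_ip.  Extra symmetries
  (swap, rfY; rfZ): the transformed function is a minimiser, eq_of_ip_sq, sign from ip with ψ;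
  then average pointwise over the finite group (the symmetries commute).
(3) One-body bound: h(f) ≥ ∫(-½ - 1/100 + ½ 1_{|x|>ρ}) f² for ρ = ρ(D) (IMS with a radial pair of
  cut-offs, OB.gap inside, V ≥ -small outside).  Lift to Y, Z: L = Σ_i (...).  Pot.agmon with
  ω = Σ ϖ_T(|x_i|), ϖ_T smooth, 0 for s ≤ ρ, 0 ≤ ϖ' ≤ 0.92, bounded by T; outside {all |x_i| ≤ ρ}
  L - E - ½|∇ω|² ≥ 1/50, inside ω = 0.  T → ∞: ∫ e^{2·0.92 Σ(|x_i| - ρ')} A² ≤ C(D).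
(4) Pointwise: H1.kato (|A| subsolution with U = 2Σ|V(x_i)|, as E < 0 and W ≥ 0), mv_global with
  ω = 0.9 Σ|x_i| (Lipschitz 2.7), frameZ / frameY; g_bd, u_bd from g_up, u_up.
(5) A_close: f = A - A0 solves dir f φ = ∫2[(E0 - ΣV) f + (E - E0)A - l(W + w)A]φ; kato, mv_global
  with ω = 0 and source s = 2|E - E0| M + 2 l M (W + w).

## KA (channels)
F = (F1 A, F3 A) (index Bool or Fin 2), both solve the equation of A (sym_cyc, U3 symmetric).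
Parity in y: F^± = (F ± F∘(id × rfY))/2 (sym_rf23).  Since A∘rfZ = -A, F^+ is odd in x, F^- even.
c0 = ⟨Ψ,F1⟩, d = -c0; e1 = ⟨u⊗g,F1⟩, e2 = ⟨g⊗u,F1⟩, e3 = ⟨(g⊗u - u⊗g)/√2,F3⟩ (H1.partial).
R = snm F, Ev = snm F^-, O = snm F^+, No = snm (F1^+ - c0⊗Ψ, F3^+),
Ne = snm (F1^- - e1⊗ug - e2⊗gu, F3^- - e3⊗g∧u), N = snm (F - c0⊗(Ψ,0) - e⊗Ψe),
Ψe = (2ug + gu, g∧u)/√6.  One slice operator Q f = τ f + τ' f∘rfY - Σ⟨Φ_j,f⟩Φ_j (orthonormal Φ_j of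
the right parity) gives H1, wd_x (QF) = Q (wd_x F), ⟨f, Qf'⟩ = ⟨Qf,Qf'⟩: hypotheses h0-h2 of
kato_snm.  hlow: 2 qf eY (U3(x,·)) F(x) Q(x) = 2V N² + 2 q2(F,Q) + 2l⟨Q, W_x F⟩ with gapΨ, gap2a,
gap2b (F3(x,·) is antisymmetric under swap, Ψ symmetric), eqΨ, Pot.eig_tensor for gu, ug,
⟨Q, W Q⟩ ≥ 0, and for G even, G' odd ⟨G, W G'⟩ = ⟨G, Wodd G'⟩, Wodd = (W - W∘rfY)/2.  Kernels:
(K0) ‖W_x G‖² ≤ 8 dir, ‖w G‖² ≤ 4 dir (Wx_bound, pair_bound, V_coercive).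
(KA) if |G| ≤ M e^{-.9(|y1|+|y2|)}: ‖Wodd G‖ ≤ 8|z|/r³ Σ_j ‖|y_j| 1_{|y_j| ≤ r/2} G‖ + C M e^{-.4r}
  (|1/|x-y| - 1/|x-Ry|| = 4|z y3| / (|x-y||x-Ry|(|x-y|+|x-Ry|)); far part int_exp_inv_sq); so
  ≤ 8|z|/r² ‖G‖ + ..., and for Ψ ≤ C1 D|z|/r³ + ... (‖|y|g‖ ≤ C D from g_up, ‖|y|(Ψ - gg)‖ ≤ 1).
(KB) ‖(W_x - 2/r) G‖ ≤ C M / r².  (Op) q2(G,G) + l⟨G,W G⟩ ≥ (E2 + 2l/r - lC/r²)‖G‖² (G = cΨ + G⊥,
  2l/r ≤ δ0/2).  k x = ⟨u⊗g, W_x Ψ⟩ = ⟨g⊗u, W_x Ψ⟩; k_lo: ⟨ug, W gg⟩ = ∫_{Hs} g u (1/|x-y| -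
  1/|x-Ry|) ≥ c D z/r³ (integrand ≥ 0, keep B(De,1), g_lo, u_lo), the rest by (KA) and Ψ_close.
close: ‖F(x) - F⁰(x)‖² ≤ C η M (|A - A0|² ≤ η·2M' e^{-.9(|y1|+|y2|)}); F1⁰ = g(x) ug - u(x) gg,
F3⁰ = g(x) g∧u.  energy: dir Ev + dir O ≤ dirx F1 + dirx F3 = dir A, ∫V R² = ∫ΣV A², W ≥ 0.

## CE (certificate)
Class K = pairs (P,b) in H1, P even, b odd, P² + b² = R² a.e.; En = ½(dir P + dir b), a = ip P P.
|P|, oddExt |b| has the same En.  Convexity: for weights w_k and pairs with signs,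
(√Σ w P_k², oddExt √Σ w b_k²) is in K, a is affine, En ≤ Σ w En_k (HL.norm; Strip.mono).
p2 = (R,0): a = 3.  p1 = (R cos φ, R sin φ), φ = (π/2)κ(z/t) odd: a ≤ 3/2 for an abs t (slab_small).
Minimise En on a = 2: minimising sequence, exists_convex_L2to for P_n² (bounded by M R in L²),
square roots converge in L² (a.e. subsequence, dominated by R), H1.lsc2.  Multiplier: by convexity
(En0 - En(p))/(2 - a p) ≤ (En(q) - En0)/(a q - 2) for a p < 2 < a q; κ = sup of the left side;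
En(p) ≥ En0 + κ(a p - 2) on K.  Rotation by tφ (φ odd bounded H1; H1.mul_bdd, chain1):
|∇P_t|² + |∇b_t|² = |∇P|² + |∇b|² + 2t J·∇φ + t² R²|∇φ|², a_t = a + 2t∫Pbφ + O(t²): δ = -κ.
Closeness: (Ev, oddExt O) mixed with p1 or p2 with weight O(η) has a = 2, so
h(P) + h(b) ≤ 2eg + eu + Cη; OB.gap gives P → √2 g, b → u in L², V_coercive in H1;
δ = -∫J·∇φ0 / (2∫Pbφ0) with φ0 = a fixed odd test function ≥ 0 on Hs, and for (√2 g, u) the same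
quotient is δ0 (eqg tested with uφ0, equ with gφ0).

## RT, OD, PO
Cert.elH: for φ in LT vanishing off Hs use φ - φ∘rf.  ∇P = (P∇R + bJ/R)/R, ∇b = (b∇R - PJ/R)/R.
RT: G = P/(R + b₊), ∇G = (1+G²)/2 · J/R² on Hs;  ∇(RG)·∇φ = ∇R·∇(Gφ) + J·∇(G'φ/R) - φ G G'|J|²/R³,
G' = (1+G²)/2, P b G'/R = R G cos.
OD: test elH with χ² b/(P + εb + τ) (χ Tst in Hs), τ → 0: ∫χ²|J|²/(P+εb)² ≤ 4∫b²|∇χ|² + 4δ∫b²χ²
  (no positivity needed: P + εb ≥ εR); L_ε = log((P+εb)/(P+b)), |∇L_ε| ≤ |J|/((P+εb)R); log_null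
  on balls B((0,0,n²), n² - 1/n) gives P > 0 a.e.; the same with P/(b + εP) gives b > 0 a.e. on Hs.
  Jle: test el with T_k(b/√(P²+ε²)), T_k s = s/√(1+s²/k²), ε → 0 (dominated), k → ∞ (Fatou).
  odd: φ = 1_{Hs} η² P/(b + εP) (Strip), cut-offs; J·∇φ ≥ -P²|∇η|²; ε → 0.
PO: f = even + odd part, cross terms integrate to zero (integral_odd).  For each part
  η = T_k(f/√(P²+ε²)) (HL.chain2), P∇η = T'(s)(P/m)(∇f - fP∇P/m²), m = √(P²+ε²); ε → 0, k → ∞.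

## LO (lower bound of P)
On Hs replace d by d⁺ = 1_{Hs} d (LH.indicator_Hs), ρ = e² + d² + N² = R², r̂ = √(e²+d²),
p = 1 + α, ℓ = p log e + log ρ - (p+2) log(r̂ + d), W = ρ e^{2ℓ}; partial derivatives
ℓe = p/e + 2e/ρ - (p+2)e/(r̂(r̂+d)), ℓd = 2d/ρ - (p+2)/r̂, ℓN = 2N/ρ ≥ 0, eℓe + dℓd + NℓN = 0.
For φ ≥ 0 in LT supported in Hs ∩ ball: W∇ℓ·∇φ + W|∇ℓ|²φ = Σ∇x_i·∇(Wℓ_i φ) - φ W Q, with
Q(ξ) = Σ(ℓ_ij + ℓ_iℓ_j + 2x_jℓ_i/ρ)ξ_iξ_j ≥ 0 (geodesic convexity of e^ℓ on the sphere): with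
ω = (dξe - eξd)/r̂², ϱ = (eξe + dξd)/r̂, ψ = (r̂ξN - Nϱ)/ρ, T = N/r̂, x = 1 - d/r̂, s² = e²/r̂²:
Q = (2+6T²)ψ² + 6Tγψω + (γ' + γ² - 2T²/(1+T²))ω², γ s = p + 2x, (γ'+γ²)s² = pα + (5p+2)x + 4x²;
PSD since (2+6T²)(pα + (5p+2)x + 4x² - 2T²s²/(1+T²)) ≥ 9T²(p+2x)² for T² ≤ .35 s² + α/20,
s² = x(2-x), 0 < x ≤ 1.1.  The terms Σ∇x_i·∇(..) are bounded with sube, subd (split the test
function into positive and negative part), subN; the a-terms cancel; |ℓe| e, |ℓd| R, ℓN R ≤ C.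
So ∫W(∇ℓ·∇φ + |∇ℓ|²φ) ≤ C∫Wφ.  With w = P/R + τ: ∫ρ∇w·∇ψ ≥ -2δ∫ρ w ψ (elH, ∇(P/R) = bJ/R³).
v = ℓ - log w:  ∫W∇v·∇φ + W|∇v|²φ ≤ C∫Wφ  (test w with e^{2ℓ}φ/w).  On the ball W ≍ m² (BC: ρ³/(r̂+d)^6
and (e/(r̂+d))^{2α} are between abs constants).  v⁺ = 1_{Hs}(v - k0)₊, k0 abs with v ≤ k0 where
P ≥ g (inner ≤ 2g) and v - k0 ≤ C(|d| + |b|) locally (Strip).  φ = (1 - e^{-v⁺})χ² bounds
∫_{B6}|∇v⁺|²; poin_zero (lower half ball, or {P ≥ g} by Chebyshev and inf g > 0); degiorgi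
(φ = (v⁺ - k)₊χ²); e^ℓ ≥ c e/R; τ → 0; cover Sig by countably many balls; lower half by evenness.

## EV
y = 1_{Hs}(yy - h e)₊, h = M0(1 - (1-χa(z))(1-χb(x))), h = M0 on {r ≤ 2R0} ∪ {|z| ≤ 1}, zero off
Sig (3R0) 2, M0 = max Λ 2 (core; bc on the plane: R ≤ 1.2e + 1.01|d| gives Strip).  On {y > 0}
a ≥ ½.  Test with y ζ², ζ = (η - κ)χ_n; stRtwo with subR, sube (σ = -1) with h y ζ², HL.ibp for
∫φ∇e·∇h:  ∫y²ζ² ≤ C∫P²|∇ζ|² + C∫_{Sig}e²(ζ² + |∇ζ|²).  P² ≤ 4yy² ≤ 8y² + 8h²e².  Inner ball: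
κ with ∫g²χ1(η-κ) = 0, OB.gap for gχ1(η-κ) (even, ⊥ g, u) and the ground-state identity
(LH.dot_mul with eqg), error C/R0².  Far slab: hardy_field with w = Π(sx)² ŝ χ2-cut, χ = χ(z),
ζ χ2(sx).  Absorb C K²/R0² ∫P²ζ².  Upper and lower half agree (integral_even).
Finally ∫P²η² - (∫P²η)²/2 ≤ ∫P²(η-κ)².

## TH
y = yy, κ = cs, Prof.decay with stRtwo for xR.  Collar: mv_sub (k = 0, aa ≥ 0) on balls of radius
ϱ/2 inside Hs, y ≤ P, harn and g_lo, η3 small.  P ≤ 2y.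

## KS
P̂ = P/√2, B = A0 P̂ b, den B = P² + b², ½dir B B = T0 = ½(dir P + dir b).  For one component F and
each electron (Sym to the first slot): slices f_y, a = ∇P/P,
Σ∫∫|∇F - aF|² = dirx - ∫a·∇ρF + ∫|a|²ρF, ρF = ∫F², ∇ρF = 2∫F∇F (wd_bracket); |a|²ρ is integrable
(b∇P/P = J/P + ∇b) and p_k ρ_F ≤ ρ.  Poinc.main on a.e. slice, Pauli: for an antisymmetric pair
G_i + G_j ≤ ‖F‖² (bessel_prod with the family {P̂}, the coefficient ⟨P̂⊗P̂,F⟩ vanishes).  Sum with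
weights p_k: Σp_k ∇ρ_k = ∇ρ = 2P∇P + 2b∇b (WD.of_tendsto, WD.unique), pointwise
τ0 - a·∇ρ + |a|²ρ = |J|²/P².  So T̄ - T0 + δ ≥ δ(3 - 2).  Σp_k T_k ≤ T0 is finite by Ens.min and
∫|v|ρ < ∞.  Hence B minimises qf (v3 v) among Anti12 functions; vary with (P̂∧b)⊗φ and (P̂∧φ)⊗P̂;
ε2 - ε1 = δ from el with φ = b/√(1+b²).

## FI
n = e1 + δ + m2/2 - v2 (bounded).  (L) for 0 < ϱ ≤ t and bump η_ϱ: limsup of ∫η_ϱ(y - x0) n ≤ 0 as
x0 → ∞ with z0 ≥ 2t: test the equation of b and subR with φ = η_ϱ(· - x0)/R;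
|∇(R-b)·∇φ| ≤ [(1-c)|∇R|/R + s|J|/R²][|∇η| + η|∇R|/R], c = b/R, s = P/R → 0 (ThetaDecay), local
bounds of ∫|∇R|²/R² (Sub.cacc, comp) and ∫|J|²/R⁴ (elH with χ²P/R, c ≥ ½), tail_small.  The lower
half space: P, -b∘rf... solve the equations for v∘rf, so (L) holds for v∘rf too.
(P) for f in H1 vanishing on r < r1: ∫v f² ≥ (e1 + δ + m2/2 - ε)‖f‖² - ε dir f f:
∫n f² = ∫(n * η) f² + O(ϱ‖n‖(‖f‖² + dir)) (H1.shift_le), slab_small for |z| < 2t, tail_small.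
(A) f = χ e^{ω_T} P, H1.dir_mul with the equation of P, κ² < m2 + 2δ - 2ε..: ∫P² e^{2κ r} < ∞ for
some κ > κ' > √m2, against P ≥ c e^{-κ' r} on the slab |z| ≤ 1 (low) of infinite volume.

## BR
kineticOne f < ⊤ iff Re f, Im f in H1, and then it equals ½(dir Re + dir Im): R338.exists_test_one
+ H1.lsc2 for ≥, R338.kineticOne_eq + approx + Fatou on the Fourier side for ≤ (the definitions of
R338 are the same by rfl).  Config3 ≃ Z linear, measure preserving, Sym.  Ψ s = ± A∘perm/√3 on the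
three spin assignments with two 0's, scaled by x = n r.  Every component of a fermionic Φ is
antisymmetric in a pair with equal spins; permute it to (1,2); IsMin gives E‖·‖² ≤ qf.

## PR: see the files R335/PR/*.
-/
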